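import Mathlib

/-!
# Conjugation invariance of a local homomorphism is formal

`R` any ring, `I` an additive subgroup closed under products such that `1 + I` is a group, `Ψ`
additive on `1 + I` with values in an abelian group.  Then `Ψ (1 + t w) = Ψ (1 + w t)` for all
`t, w ∈ I` (`Gh.vas`).  With a central unit `κ` this gives `Ψ (g x g⁻¹) = Ψ x` for every unit `g`
of `R` and every `x` near `1` (`Gh.conj`), and the same for germs in a topological ring
(`vas_germ`, `conj_germ`).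
-/

open Filter Topology

namespace Vale.Agent.P011.H731.Odd

section alg

variable {R E : Type*} [Ring R] [AddCommGroup E]

/-- `I` is closed under products, `1 + I` is a group and `Ψ` is additive on it. -/
structure Gh (I : AddSubgroup R) (Ψ : R → E) : Prop where
  mul : ∀ x ∈ I, ∀ y ∈ I, x * y ∈ I
  inv : ∀ x ∈ I, ∃ y ∈ I, (1 + x) * (1 + y) = 1 ∧ (1 + y) * (1 + x) = 1
  add : ∀ x ∈ I, ∀ y ∈ I, Ψ ((1 + x) * (1 + y)) = Ψ (1 + x) + Ψ (1 + y)

/-- The algebraic core: only four values are compared. -/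
theorem vas_id {Ψ : R → E} {t w c' p' : R} (hc : (1 - w) * c' = 1)
    (hp : c' * (1 - t) * p' = 1)
    (h1 : Ψ ((1 - w) * (1 + c' * (1 - t) * w)) = Ψ (1 - w) + Ψ (1 + c' * (1 - t) * w))
    (h2 : Ψ ((1 - w) * (1 + w * (c' * (1 - t)))) = Ψ (1 - w) + Ψ (1 + w * (c' * (1 - t))))
    (h3 : Ψ (c' * (1 - t) * ((1 + w * (c' * (1 - t))) * p')) =
      Ψ (c' * (1 - t)) + Ψ ((1 + w * (c' * (1 - t))) * p'))
    (h4 : Ψ ((1 + w * (c' * (1 - t))) * p') = Ψ (1 + w * (c' * (1 - t))) + Ψ p')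
    (h5 : Ψ (c' * (1 - t)) + Ψ p' = 0) :
    Ψ (1 - t * w) = Ψ (1 - w * t) := by
  have e1 : (1 - w) * (1 + c' * (1 - t) * w) = 1 - t * w := by
    have : (1 - w) * (1 + c' * (1 - t) * w) = (1 - w) + ((1 - w) * c') * ((1 - t) * w) := by
      noncomm_ring
    rw [this, hc]; noncomm_ring
  have e2 : (1 - w) * (1 + w * (c' * (1 - t))) = 1 - w * t := by
    have : (1 - w) * (1 + w * (c' * (1 - t))) = (1 - w) + w * (((1 - w) * c') * (1 - t)) := by
      noncomm_ring
    rw [this, hc]; noncomm_ring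
  have e3 : c' * (1 - t) * ((1 + w * (c' * (1 - t))) * p') = 1 + c' * (1 - t) * w := by
    have : c' * (1 - t) * ((1 + w * (c' * (1 - t))) * p')
        = c' * (1 - t) * p' + c' * (1 - t) * w * (c' * (1 - t) * p') := by noncomm_ring
    rw [this, hp]; noncomm_ring
  rw [← e1, ← e2, h1, h2, ← e3, h3, h4]
  have : Ψ (c' * (1 - t)) + (Ψ (1 + w * (c' * (1 - t))) + Ψ p')
      = Ψ (1 + w * (c' * (1 - t))) + (Ψ (c' * (1 - t)) + Ψ p') := by abel
  rw [this, h5, add_zero]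

namespace Gh

variable {I : AddSubgroup R} {Ψ : R → E}

theorem one (h : Gh I Ψ) : Ψ 1 = 0 := by
  have := h.add 0 I.zero_mem 0 I.zero_mem
  simpa using this

theorem add' (h : Gh I Ψ) {u v : R} (hu : u - 1 ∈ I) (hv : v - 1 ∈ I) :
    Ψ (u * v) = Ψ u + Ψ v := by
  have := h.add _ hu _ hv
  simpa using this

theorem mulI (h : Gh I Ψ) {u v : R} (hu : u - 1 ∈ I) (hv : v - 1 ∈ I) : u * v - 1 ∈ I := by
  have h1 := I.add_mem (I.add_mem hu hv) (h.mul _ hu _ hv)
  have : u * v - 1 = (u - 1) + (v - 1) + (u - 1) * (v - 1) := by noncomm_ring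
  rw [this]; exact h1

theorem inv' (h : Gh I Ψ) {u : R} (hu : u - 1 ∈ I) :
    ∃ v : R, v - 1 ∈ I ∧ u * v = 1 ∧ v * u = 1 := by
  obtain ⟨y, hy, h1, h2⟩ := h.inv _ hu
  refine ⟨1 + y, by simpa using hy, ?_, ?_⟩
  · simpa using h1
  · simpa using h2

/-- **The relation `Ψ (1 - t w) = Ψ (1 - w t)` holds for every local homomorphism.** -/
theorem vas_sub (h : Gh I Ψ) {t w : R} (ht : t ∈ I) (hw : w ∈ I) :
    Ψ (1 - t * w) = Ψ (1 - w * t) := by
  have hc1 : (1 - w) - 1 ∈ I := by simpa using I.neg_mem hw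
  have hu1 : (1 - t) - 1 ∈ I := by simpa using I.neg_mem ht
  obtain ⟨c', hc'1, hcc, hcc'⟩ := h.inv' hc1
  have hp1 : c' * (1 - t) - 1 ∈ I := h.mulI hc'1 hu1
  obtain ⟨p', hp'1, hpp, hpp'⟩ := h.inv' hp1
  have hpw : c' * (1 - t) * w ∈ I := by
    have : c' * (1 - t) * w = (c' * (1 - t) - 1) * w + w := by noncomm_ring
    rw [this]; exact I.add_mem (h.mul _ hp1 _ hw) hw
  have hwp : w * (c' * (1 - t)) ∈ I := by
    have : w * (c' * (1 - t)) = w * (c' * (1 - t) - 1) + w := by noncomm_ring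
    rw [this]; exact I.add_mem (h.mul _ hw _ hp1) hw
  have hpw1 : (1 + c' * (1 - t) * w) - 1 ∈ I := by simpa using hpw
  have hwp1 : (1 + w * (c' * (1 - t))) - 1 ∈ I := by simpa using hwp
  refine vas_id hcc hpp (h.add' hc1 hpw1) (h.add' hc1 hwp1)
    (h.add' hp1 (h.mulI hwp1 hp'1)) (h.add' hwp1 hp'1) ?_
  rw [← h.add' hp1 hp'1, hpp, h.one]

theorem vas (h : Gh I Ψ) {t w : R} (ht : t ∈ I) (hw : w ∈ I) :
    Ψ (1 + t * w) = Ψ (1 + w * t) := by
  have := h.vas_sub (I.neg_mem ht) hw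
  simpa using this

/-- with a central unit `κ` (inverse `κ'`) -/
theorem vas_central (h : Gh I Ψ) {κ κ' : R} (hκ : κ * κ' = 1) (hc : ∀ x, κ * x = x * κ)
    {t w : R} (ht : κ * t ∈ I) (hw : κ' * w ∈ I) :
    Ψ (1 + t * w) = Ψ (1 + w * t) := by
  have hκ' : κ' * κ = 1 := by rw [← hc]; exact hκ
  have hc' : ∀ x, κ' * x = x * κ' := fun x => by
    calc κ' * x = κ' * x * (κ * κ') := by rw [hκ, mul_one]
      _ = κ' * (x * κ) * κ' := by noncomm_ring
      _ = κ' * κ * x * κ' := by rw [← hc]; noncomm_ring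
      _ = x * κ' := by rw [hκ', one_mul]
  have e1 : κ * t * (κ' * w) = t * w := by
    calc κ * t * (κ' * w) = κ * (t * κ') * w := by noncomm_ring
      _ = κ * κ' * (t * w) := by rw [← hc']; noncomm_ring
      _ = t * w := by rw [hκ, one_mul]
  have e2 : κ' * w * (κ * t) = w * t := by
    calc κ' * w * (κ * t) = κ' * (w * κ) * t := by noncomm_ring
      _ = κ' * κ * (w * t) := by rw [← hc]; noncomm_ring
      _ = w * t := by rw [hκ', one_mul]
  have := h.vas ht hw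
  rwa [e1, e2] at this

/-- **Conjugation by an arbitrary unit `g`**: only `κ g` and `κ⁻¹ (x - 1) g⁻¹` have to be small. -/
theorem conj (h : Gh I Ψ) {κ κ' g g' x : R} (hκ : κ * κ' = 1) (hc : ∀ x, κ * x = x * κ)
    (hg : g * g' = 1) (hg' : g' * g = 1) (hI : κ * g ∈ I) (hx : κ' * ((x - 1) * g') ∈ I) :
    Ψ (g * x * g') = Ψ x := by
  have := h.vas_central hκ hc hI hx
  have e1 : 1 + g * ((x - 1) * g') = g * x * g' := by
    have : g * ((x - 1) * g') = g * x * g' - g * g' := by noncomm_ring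
    rw [this, hg]; abel
  have e2 : 1 + (x - 1) * g' * g = x := by
    rw [mul_assoc, hg']; noncomm_ring
  rwa [e1, e2] at this

end Gh

end alg

section germ

variable {R E : Type*} [Ring R] [TopologicalSpace R] [AddCommGroup E]

/-- `Ψ` is additive near `1` -/
def Germ (Ψ : R → E) : Prop := ∀ᶠ p : R × R in 𝓝 (1, 1), Ψ (p.1 * p.2) = Ψ p.1 + Ψ p.2

/-- `iv` inverts the elements near `1` and is continuous at `1` -/
structure InvNear (iv : R → R) : Prop where
  one : iv 1 = 1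
  cont : ContinuousAt iv 1
  left : ∀ᶠ x in 𝓝 (1 : R), iv x * x = 1
  right : ∀ᶠ x in 𝓝 (1 : R), x * iv x = 1

theorem Germ.one {Ψ : R → E} (h : Germ Ψ) : Ψ 1 = 0 := by
  have := h.self_of_nhds
  simpa using this

theorem Germ.comp {Ψ : R → E} (h : Germ Ψ) {X : Type*} {l : Filter X} {f g : X → R}
    (hf : Tendsto f l (𝓝 1)) (hg : Tendsto g l (𝓝 1)) :
    ∀ᶠ x in l, Ψ (f x * g x) = Ψ (f x) + Ψ (g x) :=
  (hf.prodMk_nhds hg).eventually h

variable [IsTopologicalRing R]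

theorem vas_germ {Ψ : R → E} (h : Germ Ψ) {iv : R → R} (hi : InvNear iv) :
    ∀ᶠ q : R × R in 𝓝 (0, 0), Ψ (1 - q.1 * q.2) = Ψ (1 - q.2 * q.1) := by
  have ht : Tendsto (fun q : R × R => q.1) (𝓝 (0, 0)) (𝓝 0) := (continuous_fst.tendsto _)
  have hw : Tendsto (fun q : R × R => q.2) (𝓝 (0, 0)) (𝓝 0) := (continuous_snd.tendsto _)
  have hc : Tendsto (fun q : R × R => 1 - q.2) (𝓝 (0, 0)) (𝓝 1) := by
    simpa using (tendsto_const_nhds (x := (1 : R))).sub hw
  have hu : Tendsto (fun q : R × R => 1 - q.1) (𝓝 (0, 0)) (𝓝 1) := by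
    simpa using (tendsto_const_nhds (x := (1 : R))).sub ht
  have hiv : Tendsto iv (𝓝 1) (𝓝 1) := by
    have := hi.cont.tendsto
    rwa [hi.one] at this
  have hc' : Tendsto (fun q : R × R => iv (1 - q.2)) (𝓝 (0, 0)) (𝓝 1) := hiv.comp hc
  have hp : Tendsto (fun q : R × R => iv (1 - q.2) * (1 - q.1)) (𝓝 (0, 0)) (𝓝 1) := by
    simpa using hc'.mul hu
  have hp' : Tendsto (fun q : R × R => iv (iv (1 - q.2) * (1 - q.1))) (𝓝 (0, 0)) (𝓝 1) :=
    hiv.comp hp
  have hpw : Tendsto (fun q : R × R => 1 + iv (1 - q.2) * (1 - q.1) * q.2) (𝓝 (0, 0)) (𝓝 1) := by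
    simpa using (tendsto_const_nhds (x := (1 : R))).add (hp.mul hw)
  have hwp : Tendsto (fun q : R × R => 1 + q.2 * (iv (1 - q.2) * (1 - q.1))) (𝓝 (0, 0))
      (𝓝 1) := by
    simpa using (tendsto_const_nhds (x := (1 : R))).add (hw.mul hp)
  have hwpp : Tendsto (fun q : R × R => (1 + q.2 * (iv (1 - q.2) * (1 - q.1))) *
      iv (iv (1 - q.2) * (1 - q.1))) (𝓝 (0, 0)) (𝓝 1) := by
    simpa using hwp.mul hp'
  filter_upwards [h.comp hc hpw, h.comp hc hwp, h.comp hp hwpp, h.comp hwp hp', h.comp hp hp',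
    hc.eventually hi.right, hp.eventually hi.right] with q h1 h2 h3 h4 h5 l2 l3
  refine vas_id l2 l3 h1 h2 h3 h4 ?_
  rw [← h5, l3, h.one]

/-- **A germ of homomorphism is invariant under conjugation by every unit `g`** for which some
central unit `κ` makes `κ g` small. -/
theorem conj_germ {Ψ : R → E} (h : Germ Ψ) {iv : R → R} (hi : InvNear iv) {g g' : R}
    (hg : g * g' = 1) (hg' : g' * g = 1)
    (hκ : ∀ O ∈ 𝓝 (0 : R), ∃ κ κ' : R, κ * κ' = 1 ∧ (∀ x, κ * x = x * κ) ∧ κ * g ∈ O) :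
    ∀ᶠ x in 𝓝 (1 : R), Ψ (g * x * g') = Ψ x := by
  obtain ⟨U, hU, V, hV, hUV⟩ := (mem_nhds_prod_iff).1 (vas_germ h hi)
  obtain ⟨κ, κ', hk, hc, hkg⟩ := hκ U hU
  have hk' : κ' * κ = 1 := by rw [← hc]; exact hk
  have hc' : ∀ x, κ' * x = x * κ' := fun x => by
    calc κ' * x = κ' * x * (κ * κ') := by rw [hk, mul_one]
      _ = κ' * (x * κ) * κ' := by noncomm_ring
      _ = κ' * κ * x * κ' := by rw [← hc]; noncomm_ring
      _ = x * κ' := by rw [hk', one_mul]
  have hcont : Continuous fun x : R => κ' * ((1 - x) * g') := by fun_prop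
  have h0 : Tendsto (fun x : R => κ' * ((1 - x) * g')) (𝓝 1) (𝓝 0) := by
    have := hcont.tendsto 1
    simpa using this
  filter_upwards [h0 hV] with x hx
  have key : Ψ (1 - κ * g * (κ' * ((1 - x) * g'))) = Ψ (1 - κ' * ((1 - x) * g') * (κ * g)) :=
    hUV (Set.mk_mem_prod hkg hx)
  have e1 : 1 - κ * g * (κ' * ((1 - x) * g')) = g * x * g' := by
    calc 1 - κ * g * (κ' * ((1 - x) * g')) = 1 - κ * (g * κ') * ((1 - x) * g') := by noncomm_ring
      _ = 1 - κ * κ' * (g * ((1 - x) * g')) := by rw [← hc']; noncomm_ring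
      _ = 1 - g * g' + g * x * g' := by rw [hk]; noncomm_ring
      _ = g * x * g' := by rw [hg]; noncomm_ring
  have e2 : 1 - κ' * ((1 - x) * g') * (κ * g) = x := by
    calc 1 - κ' * ((1 - x) * g') * (κ * g) = 1 - κ' * (((1 - x) * g') * κ) * g := by noncomm_ring
      _ = 1 - κ' * κ * ((1 - x) * (g' * g)) := by rw [← hc]; noncomm_ring
      _ = x := by rw [hk', hg']; noncomm_ring
  rwa [e1, e2] at key

end germ

section alg_germ

variable {K R E : Type*} [Field K] [TopologicalSpace K] [(𝓝[≠] (0 : K)).NeBot]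
  [Ring R] [Algebra K R] [TopologicalSpace R] [IsTopologicalRing R] [AddCommGroup E]

/-- the form for an algebra over a nondiscrete field -/
theorem conj_germ_alg (hcK : ContinuousAt (algebraMap K R) 0) {Ψ : R → E} (h : Germ Ψ)
    {iv : R → R} (hi : InvNear iv) {g g' : R} (hg : g * g' = 1) (hg' : g' * g = 1) :
    ∀ᶠ x in 𝓝 (1 : R), Ψ (g * x * g') = Ψ x := by
  refine conj_germ h hi hg hg' fun O hO => ?_
  have h1 : Tendsto (fun κ : K => algebraMap K R κ * g) (𝓝 0) (𝓝 0) := by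
    have h2 : Tendsto (algebraMap K R) (𝓝 0) (𝓝 0) := by
      have := hcK.tendsto
      rwa [map_zero] at this
    simpa using h2.mul_const g
  have h3 : ∀ᶠ κ : K in 𝓝[≠] 0, algebraMap K R κ * g ∈ O :=
    (h1.mono_left nhdsWithin_le_nhds) hO
  have h4 : ∀ᶠ κ : K in 𝓝[≠] 0, κ ≠ 0 := eventually_mem_nhdsWithin
  obtain ⟨κ, hκ, hκ0⟩ := (h3.and h4).exists
  refine ⟨algebraMap K R κ, algebraMap K R κ⁻¹, ?_, fun x => Algebra.commutes κ x, hκ⟩
  rw [← map_mul, mul_inv_cancel₀ hκ0, map_one]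

end alg_germ

section div

variable {D E : Type*} [DivisionRing D] [TopologicalSpace D] [IsTopologicalRing D]
  [ContinuousInv₀ D] [T1Space D] [AddCommGroup E]

theorem invNear_div : InvNear (fun x : D => x⁻¹) where
  one := inv_one
  cont := continuousAt_inv₀ one_ne_zero
  left := by
    filter_upwards [isOpen_ne.mem_nhds (one_ne_zero (α := D))] with x hx
    exact inv_mul_cancel₀ hx
  right := by
    filter_upwards [isOpen_ne.mem_nhds (one_ne_zero (α := D))] with x hx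
    exact mul_inv_cancel₀ hx

end div

end Vale.Agent.P011.H731.Odd
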