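import Vale.Agent.P011.H605.Odd.Dd
import Vale.Agent.P011.H731.Odd.Vas

/-!
# The relative Dieudonne determinant: `comm` is automatic, `GL_m(D)`-invariance is automatic

* `rd_of_hom`: `Ψ` additive on `1 + I` alone gives `Rd O (κ I) Ψ` for a central `κ ∈ I`.
* `gh_matrix`: the pivot sum is a local homomorphism on `1 + M_m(I)`.
* `ps_conj_any`, `ps_conj_exists`: invariance of the pivot sum under conjugation by EVERY
  `P ∈ GL_m(D)`, for `X` near `1` (no conjugation invariance of `Ψ`, no Cartan decomposition).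
-/

open Matrix

namespace Vale.Agent.P011.H731.Odd

open Vale.Agent.P011.H605.Odd

variable {D E : Type*} [DivisionRing D] [AddCommGroup E]

/-- `κ I` -/
def kI (κ : D) (I : AddSubgroup D) : AddSubgroup D := I.map (AddMonoidHom.mulLeft κ)

theorem mem_kI {κ : D} {I : AddSubgroup D} {x : D} : x ∈ kI κ I ↔ ∃ y ∈ I, κ * y = x :=
  AddSubgroup.mem_map

theorem mem_kI' {κ : D} (hκ : κ ≠ 0) {I : AddSubgroup D} {x : D} : x ∈ kI κ I ↔ κ⁻¹ * x ∈ I := by
  rw [mem_kI]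
  constructor
  · rintro ⟨y, hy, rfl⟩
    rwa [inv_mul_cancel_left₀ hκ]
  · intro h
    exact ⟨_, h, mul_inv_cancel_left₀ hκ _⟩

variable {O : Subring D} {I : AddSubgroup D} {Ψ : D → E}

/-- **The hypothesis `comm` of `Rd` is automatic** on the smaller ideal `κ I`. -/
theorem rd_of_hom (le : ∀ x ∈ I, x ∈ O) (mul_left : ∀ a ∈ O, ∀ x ∈ I, a * x ∈ I)
    (mul_right : ∀ x ∈ I, ∀ a ∈ O, x * a ∈ I) (ne : ∀ x ∈ I, 1 + x ≠ 0)
    (inv : ∀ x ∈ I, (1 + x)⁻¹ - 1 ∈ I)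
    (add : ∀ x ∈ I, ∀ y ∈ I, Ψ ((1 + x) * (1 + y)) = Ψ (1 + x) + Ψ (1 + y))
    {κ : D} (hκI : κ ∈ I) (hc : ∀ x, κ * x = x * κ) : Rd O (kI κ I) Ψ := by
  have hκO : κ ∈ O := le _ hκI
  have sub : ∀ x ∈ kI κ I, x ∈ I := by
    intro x hx
    obtain ⟨y, hy, rfl⟩ := mem_kI.1 hx
    exact mul_left _ hκO _ hy
  have gh : Gh I Ψ := by
    refine ⟨fun x hx y hy => mul_left _ (le _ hx) _ hy, fun x hx => ?_, add⟩
    refine ⟨(1 + x)⁻¹ - 1, inv x hx, ?_, ?_⟩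
    · rw [add_sub_cancel, mul_inv_cancel₀ (ne x hx)]
    · rw [add_sub_cancel, inv_mul_cancel₀ (ne x hx)]
  refine ⟨fun x hx => le _ (sub _ hx), ?_, ?_, fun x hx => ne _ (sub _ hx), ?_,
    fun x hx y hy => add _ (sub _ hx) _ (sub _ hy), ?_⟩
  · intro a ha x hx
    obtain ⟨y, hy, rfl⟩ := mem_kI.1 hx
    refine mem_kI.2 ⟨a * y, mul_left _ ha _ hy, ?_⟩
    rw [← mul_assoc, hc a, mul_assoc]
  · intro x hx a ha
    obtain ⟨y, hy, rfl⟩ := mem_kI.1 hx
    exact mem_kI.2 ⟨y * a, mul_right _ hy _ ha, (mul_assoc _ _ _).symm⟩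
  · intro x hx
    have h0 := ne _ (sub _ hx)
    have hi : (1 + x)⁻¹ ∈ O := by
      have := O.add_mem (le _ (inv _ (sub _ hx))) O.one_mem
      simpa using this
    obtain ⟨y, hy, rfl⟩ := mem_kI.1 hx
    refine mem_kI.2 ⟨-(y * (1 + κ * y)⁻¹), I.neg_mem (mul_right _ hy _ hi), ?_⟩
    rw [eq_sub_iff_add_eq]
    apply mul_right_cancel₀ h0
    rw [add_mul, inv_mul_cancel₀ h0, mul_neg, neg_mul, ← mul_assoc, mul_assoc (κ * y),
      inv_mul_cancel₀ h0]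
    noncomm_ring
  · intro x hx y hy
    obtain ⟨z, hz, rfl⟩ := mem_kI.1 hx
    have := gh.vas hz (mul_right _ hκI _ hy)
    rw [show κ * z * y = z * (κ * y) by rw [hc z, mul_assoc],
      show y * (κ * z) = κ * y * z by rw [← mul_assoc, hc y]]
    exact this

/-- matrices with entries in `I` -/
def MI (I : AddSubgroup D) (m : ℕ) : AddSubgroup (Matrix (Fin m) (Fin m) D) where
  carrier := {X | ∀ i j, X i j ∈ I}
  add_mem' h1 h2 i j := I.add_mem (h1 i j) (h2 i j)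
  zero_mem' _ _ := I.zero_mem
  neg_mem' h1 i j := I.neg_mem (h1 i j)

theorem mem_MI {m : ℕ} {X : Matrix (Fin m) (Fin m) D} : X ∈ MI I m ↔ ∀ i j, X i j ∈ I := Iff.rfl

theorem cg_iff {m : ℕ} {X : Matrix (Fin m) (Fin m) D} : Cg I X ↔ X - 1 ∈ MI I m := Iff.rfl

theorem inv_list (h : Rd O I Ψ) {m : ℕ} : ∀ l : List (Matrix (Fin m) (Fin m) D),
    (∀ Y ∈ l, R1 O I Y) → ∃ Z : Matrix (Fin m) (Fin m) D, Cg I Z ∧ l.prod * Z = 1
  | [], _ => ⟨1, cg_one, by simp⟩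
  | a :: l, hl => by
    obtain ⟨Z, hZ, hZ'⟩ := inv_list h l fun Y hY => hl Y (List.mem_cons_of_mem _ hY)
    obtain ⟨c, b, hcb, rfl⟩ := hl a List.mem_cons_self
    have hq := hcb.dot h
    have ht : 1 + b ⬝ᵥ c ≠ 0 := h.ne _ hq
    have hs : (1 + b ⬝ᵥ c)⁻¹ ∈ O := h.memO (h.inv _ hq)
    set s := (1 + b ⬝ᵥ c)⁻¹ with hsdef
    have e2 : s + (b ⬝ᵥ c) * s = 1 := by
      have := mul_inv_cancel₀ ht
      rw [add_mul, one_mul] at this
      exact this
    have hcb' : CB O I (fun i : Fin m => c i * -s) b := by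
      rcases hcb with ⟨hc, hb⟩ | ⟨hc, hb⟩
      · exact Or.inl ⟨fun i => h.mul_right _ (hc i) _ (O.neg_mem hs), hb⟩
      · exact Or.inr ⟨fun i => O.mul_mem (hc i) (O.neg_mem hs), hb⟩
    refine ⟨Z * (1 + vecMulVec (fun i : Fin m => c i * -s) b), hZ.mul h (hcb'.cg h), ?_⟩
    have e3 : (1 + vecMulVec c b) * (1 + vecMulVec (fun i : Fin m => c i * -s) b) = 1 := by
      rw [mul_add, mul_one, add_mul, one_mul, Matrix.vecMulVec_mul_vecMulVec]
      have e4 : b ⬝ᵥ (fun i : Fin m => c i * -s) = -((b ⬝ᵥ c) * s) := by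
        rw [dotProduct, dotProduct, Finset.sum_mul, ← Finset.sum_neg_distrib]
        refine Finset.sum_congr rfl fun i _ => ?_
        noncomm_ring
      ext i j
      simp only [Matrix.add_apply, vecMulVec_apply, e4]
      have : (1 : Matrix (Fin m) (Fin m) D) i j + c i * b j + (c i * -s * b j
          + c i * (-((b ⬝ᵥ c) * s) * b j)) = (1 : Matrix (Fin m) (Fin m) D) i j
          + c i * (1 - (s + (b ⬝ᵥ c) * s)) * b j := by noncomm_ring
      simp only [Pi.smul_apply, smul_eq_mul] at *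
      rw [this, e2]; simp
    rw [List.prod_cons]
    calc (1 + vecMulVec c b) * l.prod * (Z * (1 + vecMulVec (fun i : Fin m => c i * -s) b))
        = (1 + vecMulVec c b) * (l.prod * Z) * (1 + vecMulVec (fun i : Fin m => c i * -s) b) := by
          noncomm_ring
      _ = 1 := by rw [hZ', mul_one, e3]

theorem exists_inv (h : Rd O I Ψ) {m : ℕ} {X : Matrix (Fin m) (Fin m) D} (hX : Cg I X) :
    ∃ Z : Matrix (Fin m) (Fin m) D, Cg I Z ∧ X * Z = 1 ∧ Z * X = 1 := by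
  obtain ⟨l, hl, rfl⟩ := exists_list h m X hX
  obtain ⟨Z, hZ, hZ'⟩ := inv_list h l hl
  exact ⟨Z, hZ, hZ', mul_eq_one_comm.mp hZ'⟩

/-- **the pivot sum is a local homomorphism of `M_m(D)`** -/
theorem gh_matrix (h : Rd O I Ψ) (m : ℕ) : Gh (MI I m) (ps Ψ m) := by
  have key : ∀ X ∈ MI I m, Cg I (1 + X) := fun X hX => by
    rw [cg_iff, add_sub_cancel_left]; exact hX
  refine ⟨?_, ?_, ?_⟩
  · intro X hX Y hY i j
    rw [Matrix.mul_apply]
    exact I.sum_mem fun k _ => h.mul_left _ (h.le _ (hX i k)) _ (hY k j)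
  · intro X hX
    obtain ⟨Z, hZ, h1, h2⟩ := exists_inv h (key X hX)
    refine ⟨Z - 1, hZ, ?_, ?_⟩
    · rwa [add_sub_cancel]
    · rwa [add_sub_cancel]
  · intro X hX Y hY
    exact ps_mul h m _ _ (key X hX) (key Y hY)

/-- **Conjugation invariance under every `P ∈ GL_m(D)`**: only `κ P` and `κ⁻¹ (X - 1) P⁻¹` have to
have their entries in `I`. -/
theorem ps_conj_any (h : Rd O I Ψ) {m : ℕ} {P P' : Matrix (Fin m) (Fin m) D} (hP : P * P' = 1)
    {κ : D} (hκ : κ ≠ 0) (hc : ∀ x, κ * x = x * κ) (h1 : ∀ i j, κ * P i j ∈ I)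
    {X : Matrix (Fin m) (Fin m) D} (h2 : ∀ i j, κ⁻¹ * ((X - 1) * P') i j ∈ I) :
    ps Ψ m (P * X * P') = ps Ψ m X := by
  have hP' : P' * P = 1 := mul_eq_one_comm.mp hP
  refine (gh_matrix h m).conj (κ := Matrix.diagonal fun _ => κ)
    (κ' := Matrix.diagonal fun _ => κ⁻¹) ?_ ?_ hP hP' ?_ ?_
  · rw [Matrix.diagonal_mul_diagonal, ← Matrix.diagonal_one]
    congr 1; funext i; exact mul_inv_cancel₀ hκ
  · intro Y
    ext i j
    rw [Matrix.diagonal_mul, Matrix.mul_diagonal, hc]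
  · intro i j
    rw [Matrix.diagonal_mul]; exact h1 i j
  · intro i j
    rw [Matrix.diagonal_mul]; exact h2 i j

/-- the same, with one smaller ideal `μ I` for a given `P` -/
theorem ps_conj_exists (h : Rd O I Ψ)
    (hden : ∀ s : Finset D, ∃ κ : D, κ ≠ 0 ∧ (∀ x, κ * x = x * κ) ∧ ∀ x ∈ s, κ * x ∈ I)
    {m : ℕ} {P P' : Matrix (Fin m) (Fin m) D} (hP : P * P' = 1) :
    ∃ μ : D, μ ≠ 0 ∧ (∀ x, μ * x = x * μ) ∧ ∀ X : Matrix (Fin m) (Fin m) D,
      Cg (kI μ I) X → ps Ψ m (P * X * P') = ps Ψ m X := by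
  classical
  obtain ⟨κ, hκ, hc, h1⟩ := hden (Finset.univ.image fun p : Fin m × Fin m => P p.1 p.2)
  obtain ⟨τ, hτ, hcτ, h2⟩ := hden (Finset.univ.image fun p : Fin m × Fin m => P' p.1 p.2)
  have hcm : ∀ x, κ * τ * x = x * (κ * τ) := fun x => by
    rw [mul_assoc, hcτ, ← mul_assoc, hc, mul_assoc]
  refine ⟨κ * τ, mul_ne_zero hκ hτ, hcm, fun X hX => ?_⟩
  refine ps_conj_any h hP hκ hc (fun i j => ?_) fun i j => ?_
  · exact h1 _ (Finset.mem_image_of_mem _ (Finset.mem_univ (i, j)))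
  · rw [Matrix.mul_apply, Finset.mul_sum]
    refine I.sum_mem fun k _ => ?_
    obtain ⟨y, hy, hyx⟩ := mem_kI.1 (hX i k)
    have e : κ⁻¹ * ((X - 1) i k * P' k j) = y * (τ * P' k j) := by
      rw [← hyx, mul_assoc κ, mul_assoc κ, inv_mul_cancel_left₀ hκ, hcτ y, mul_assoc]
    rw [e]
    exact h.mul_right _ hy _ (h.le _ (h2 _ (Finset.mem_image_of_mem _ (Finset.mem_univ (k, j)))))

end Vale.Agent.P011.H731.Odd
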